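import Mathlib

/-!
# P139: what a solution on `[0, T]` is

`c t n` is the `n`-th Fourier coefficient of `u (t, ·)` on `(ℝ / 2πℤ)^d`.
-/

noncomputable section

namespace Vale.Agent.P139

open Filter Topology

/-- `u (t, x) = ∑ₙ c t n * e^{i n·x}`. -/
def uOf {d : ℕ} (c : ℝ → (Fin d → ℤ) → ℂ) (t : ℝ) (x : Fin d → ℝ) : ℂ :=
  ∑' n : Fin d → ℤ, c t n * Complex.exp (((∑ i, (n i : ℝ) * x i : ℝ) : ℂ) * Complex.I)

/-- `c` is the Fourier series of a solution on `[0, T]` of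
`i ∂ₜ u + Δ u = |u|^{2m} u` (the equation with `p = 2m + 1`), with initial Fourier coefficients
`data`: for every `t ∈ [0, T]` the series `∑ (1+∑|nᵢ|)^k |c t n|` is finite, it is continuous in
`t` in this norm (hence in `H^k`), and `u` satisfies the equation classically at every `x`. -/
def IsSolution (d m k : ℕ) (T : ℝ) (data : (Fin d → ℤ) → ℂ)
    (c : ℝ → (Fin d → ℤ) → ℂ) : Prop :=
  (∀ n, c 0 n = data n) ∧
  (∀ t ∈ Set.Icc 0 T, Summable fun n => (1 + ∑ i, |(n i : ℝ)|) ^ k * ‖c t n‖) ∧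
  (∀ t ∈ Set.Icc 0 T, Tendsto
    (fun s => ∑' n : Fin d → ℤ, (1 + ∑ i, |(n i : ℝ)|) ^ k * ‖c s n - c t n‖)
    (𝓝[Set.Icc 0 T] t) (𝓝 0)) ∧
  ∀ t ∈ Set.Icc 0 T, ∀ x : Fin d → ℝ, ∃ (ut : ℂ) (Du : Fin d → ℝ → ℂ) (DDu : Fin d → ℂ),
    HasDerivAt (fun s => uOf c s x) ut t ∧
    (∀ i y, HasDerivAt (fun z => uOf c t (Function.update x i z)) (Du i y) y) ∧
    (∀ i, HasDerivAt (Du i) (DDu i) (x i)) ∧
    Complex.I * ut + ∑ i, DDu i = ((‖uOf c t x‖ ^ (2 * m) : ℝ) : ℂ) * uOf c t x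

end Vale.Agent.P139
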