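import Vale.Agent.P139.L1

/-!
# P139: the linearisation at a constant state

In Fourier variables the linearised equation reads
`v' n = -i (|n|² + lam) v n - i lam conj (v (-n))`; since `L ∘ L = -ω²` with
`ω² = |n|² (|n|² + 2 lam) ≥ 0`, its flow is `cos (ω t) + (sin (ω t) / ω) L`,
which grows at most linearly in time.
-/

noncomputable section

namespace Vale.Agent.P139

open scoped ENNReal ComplexConjugate
open Filter Topology

variable {d : ℕ}

/-- `|n|²`. -/
def qn (n : Idx d) : ℝ := ∑ i, (n i : ℝ) ^ 2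

lemma qn_nonneg (n : Idx d) : 0 ≤ qn n := Finset.sum_nonneg fun _ _ => sq_nonneg _

@[simp] lemma qn_neg (n : Idx d) : qn (-n) = qn n := by simp [qn]

lemma qn_eq_zero_or_one_le (n : Idx d) : qn n = 0 ∨ 1 ≤ qn n := by
  have h : qn n = ((∑ i, (n i) ^ 2 : ℤ) : ℝ) := by simp [qn]
  rw [h]
  have h0 : 0 ≤ ∑ i, (n i) ^ 2 := Finset.sum_nonneg fun _ _ => sq_nonneg _
  rcases eq_or_lt_of_le h0 with h1 | h1
  · left; rw [← h1]; simp
  · right; exact_mod_cast h1

/-- The frequency of mode `n`. -/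
def om (lam : ℝ) (n : Idx d) : ℝ := Real.sqrt (qn n * (qn n + 2 * lam))

/-- `sin (w t) / w`, continued by `t` at `w = 0`. -/
def sfun (w t : ℝ) : ℝ := if w = 0 then t else Real.sin (w * t) / w

lemma hasDerivAt_sfun (w t : ℝ) : HasDerivAt (sfun w) (Real.cos (w * t)) t := by
  by_cases h : w = 0
  · subst h
    have e : sfun 0 = id := by funext s; simp [sfun]
    rw [e]; simpa using hasDerivAt_id t
  · have e : sfun w = fun s => Real.sin (w * s) / w := by funext s; simp [sfun, h]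
    rw [e]
    have h1 := (((hasDerivAt_id t).const_mul w).sin).div_const w
    simpa [h] using h1

lemma hasDerivAt_cos_mul (w t : ℝ) :
    HasDerivAt (fun s => Real.cos (w * s)) (-(w ^ 2 * sfun w t)) t := by
  have h1 := ((hasDerivAt_id t).const_mul w).cos
  refine h1.congr_deriv ?_
  by_cases h : w = 0
  · simp [h]
  · simp [sfun, h]; field_simp

lemma cos_sq_add_sfun (w t : ℝ) :
    Real.cos (w * t) * Real.cos (w * t) + w ^ 2 * (sfun w t * sfun w t) = 1 := by
  by_cases h : w = 0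
  · simp [h]
  · have := Real.sin_sq_add_cos_sq (w * t)
    simp only [sfun, h, if_false]
    field_simp
    nlinarith [this]

lemma sfun_neg (w t : ℝ) : sfun w (-t) = -sfun w t := by
  by_cases h : w = 0
  · simp [sfun, h]
  · simp [sfun, h, neg_div]

/-- Mode `n` of the linearised vector field, on raw coefficient functions. -/
def Lc (lam : ℝ) (n : Idx d) (b : Idx d → ℂ) : ℂ :=
  -Complex.I * (((qn n + lam : ℝ) : ℂ) * b n + (lam : ℂ) * conj (b (-n)))

lemma norm_Lc_le {lam : ℝ} (hl : 0 ≤ lam) (n : Idx d) (b : Idx d → ℂ) :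
    ‖Lc lam n b‖ ≤ (qn n + 2 * lam) * (‖b n‖ + ‖b (-n)‖) := by
  rw [Lc, norm_mul, norm_neg, Complex.norm_I, one_mul]
  refine (norm_add_le _ _).trans ?_
  rw [norm_mul, norm_mul, Complex.norm_conj, Complex.norm_real, Complex.norm_real,
    Real.norm_eq_abs, Real.norm_eq_abs, abs_of_nonneg hl,
    abs_of_nonneg (add_nonneg (qn_nonneg n) hl)]
  nlinarith [norm_nonneg (b n), norm_nonneg (b (-n)), qn_nonneg n]

/-- Mode `n` of the flow. -/
def Sc (lam t : ℝ) (n : Idx d) (b : Idx d → ℂ) : ℂ :=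
  (Real.cos (om lam n * t) : ℂ) * b n + (sfun (om lam n) t : ℂ) * Lc lam n b

/-- The linear growth constant. -/
def gam (lam : ℝ) : ℝ := 2 * (2 + 2 * lam)

lemma one_le_gam {lam : ℝ} (hl : 0 ≤ lam) : 1 ≤ gam lam := by unfold gam; linarith

lemma sfun_mul_le {lam : ℝ} (hl : 0 ≤ lam) (t : ℝ) (n : Idx d) :
    |sfun (om lam n) t| * (qn n + 2 * lam) ≤ (1 + 2 * lam) * (1 + |t|) := by
  have ht := abs_nonneg t
  rcases qn_eq_zero_or_one_le n with h | h
  · have e : om lam n = 0 := by simp [om, h]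
    simp only [sfun, e, if_true, h, zero_add]
    nlinarith
  · have hw : qn n ≤ om lam n := by
      refine Real.le_sqrt_of_sq_le ?_
      nlinarith
    have hwpos : 0 < om lam n := lt_of_lt_of_le (by linarith) hw
    have hs : |sfun (om lam n) t| * om lam n ≤ 1 := by
      simp only [sfun, hwpos.ne', if_false]
      rw [abs_div, abs_of_pos hwpos, div_mul_cancel₀ _ hwpos.ne']
      exact Real.abs_sin_le_one _
    have h2 : qn n + 2 * lam ≤ (1 + 2 * lam) * om lam n := by nlinarith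
    calc |sfun (om lam n) t| * (qn n + 2 * lam)
        ≤ |sfun (om lam n) t| * ((1 + 2 * lam) * om lam n) :=
          mul_le_mul_of_nonneg_left h2 (abs_nonneg _)
      _ = (1 + 2 * lam) * (|sfun (om lam n) t| * om lam n) := by ring
      _ ≤ (1 + 2 * lam) * 1 := mul_le_mul_of_nonneg_left hs (by linarith)
      _ ≤ (1 + 2 * lam) * (1 + |t|) := mul_le_mul_of_nonneg_left (by linarith) (by linarith)

lemma norm_Sc_le {lam : ℝ} (hl : 0 ≤ lam) (t : ℝ) (n : Idx d) (b : Idx d → ℂ) :
    ‖Sc lam t n b‖ ≤ (2 + 2 * lam) * (1 + |t|) * (‖b n‖ + ‖b (-n)‖) := by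
  refine (norm_add_le _ _).trans ?_
  rw [norm_mul, norm_mul, Complex.norm_real, Complex.norm_real, Real.norm_eq_abs,
    Real.norm_eq_abs]
  have hb1 := norm_nonneg (b n)
  have hb2 := norm_nonneg (b (-n))
  have ht := abs_nonneg t
  have h1 : |Real.cos (om lam n * t)| * ‖b n‖ ≤ (1 + |t|) * (‖b n‖ + ‖b (-n)‖) :=
    mul_le_mul ((Real.abs_cos_le_one _).trans (by linarith)) (by linarith) hb1 (by linarith)
  have h2 : |sfun (om lam n) t| * ‖Lc lam n b‖ ≤
      (1 + 2 * lam) * (1 + |t|) * (‖b n‖ + ‖b (-n)‖) := by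
    calc |sfun (om lam n) t| * ‖Lc lam n b‖
        ≤ |sfun (om lam n) t| * ((qn n + 2 * lam) * (‖b n‖ + ‖b (-n)‖)) :=
          mul_le_mul_of_nonneg_left (norm_Lc_le hl n b) (abs_nonneg _)
      _ = |sfun (om lam n) t| * (qn n + 2 * lam) * (‖b n‖ + ‖b (-n)‖) := by ring
      _ ≤ _ := mul_le_mul_of_nonneg_right (sfun_mul_le hl t n) (by linarith)
  linarith

lemma Lc_sub (lam : ℝ) (n : Idx d) (a b : Idx d → ℂ) :
    Lc lam n (a - b) = Lc lam n a - Lc lam n b := by
  simp only [Lc, Pi.sub_apply, map_sub]; ring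

lemma Sc_sub (lam t : ℝ) (n : Idx d) (a b : Idx d → ℂ) :
    Sc lam t n (a - b) = Sc lam t n a - Sc lam t n b := by
  simp only [Sc, Lc_sub, Pi.sub_apply]; ring

lemma om_sq {lam : ℝ} (hl : 0 ≤ lam) (n : Idx d) :
    om lam n ^ 2 = qn n * (qn n + 2 * lam) :=
  Real.sq_sqrt (mul_nonneg (qn_nonneg n) (by linarith [qn_nonneg n]))

@[simp] lemma om_neg (lam : ℝ) (n : Idx d) : om lam (-n) = om lam n := by simp [om]

lemma Lc_Lc {lam : ℝ} (hl : 0 ≤ lam) (n : Idx d) (b : Idx d → ℂ) :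
    Lc lam n (fun m => Lc lam m b) = -((om lam n ^ 2 : ℝ) : ℂ) * b n := by
  rw [om_sq hl]
  simp only [Lc, qn_neg, neg_neg, map_mul, map_add, map_neg, Complex.conj_I, Complex.conj_ofReal,
    Complex.conj_conj]
  push_cast
  ring_nf
  simp [Complex.I_sq]
  ring

lemma Sc_Sc_neg {lam : ℝ} (hl : 0 ≤ lam) (t : ℝ) (n : Idx d) (b : Idx d → ℂ) :
    Sc lam t n (fun m => Sc lam (-t) m b) = b n := by
  have hc : ((Real.cos (om lam n * t) : ℂ)) * (Real.cos (om lam n * t) : ℂ) +
      ((om lam n ^ 2 : ℝ) : ℂ) * ((sfun (om lam n) t : ℂ) * (sfun (om lam n) t : ℂ)) = 1 := by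
    exact_mod_cast cos_sq_add_sfun (om lam n) t
  have hL : Lc lam n (fun m => Sc lam (-t) m b) =
      (Real.cos (om lam n * t) : ℂ) * Lc lam n b
        - (sfun (om lam n) t : ℂ) * Lc lam n (fun m => Lc lam m b) := by
    simp only [Lc, Sc, om_neg, sfun_neg, mul_neg, Real.cos_neg, Complex.ofReal_neg, map_add,
      map_mul, map_neg, Complex.conj_ofReal]
    ring
  conv_lhs => rw [Sc]
  rw [hL, Lc_Lc hl]
  simp only [Sc, sfun_neg, mul_neg, Real.cos_neg, Complex.ofReal_neg]
  linear_combination (b n) * hc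

lemma hasDerivAt_Sc {lam : ℝ} (hl : 0 ≤ lam) {n : Idx d} {f : ℝ → Idx d → ℂ} {f' : Idx d → ℂ}
    {t : ℝ} (h1 : HasDerivAt (fun s => f s n) (f' n) t)
    (h2 : HasDerivAt (fun s => f s (-n)) (f' (-n)) t) :
    HasDerivAt (fun s => Sc lam s n (f s))
      (Lc lam n (fun m => Sc lam t m (f t)) + Sc lam t n f') t := by
  have hL : HasDerivAt (fun s => Lc lam n (f s)) (Lc lam n f') t := by
    simp only [Lc]
    exact ((h1.const_mul _).add ((h2.star).const_mul _)).const_mul _
  have hC := (hasDerivAt_cos_mul (om lam n) t).ofReal_comp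
  have hs := (hasDerivAt_sfun (om lam n) t).ofReal_comp
  have hmain := (hC.mul h1).add (hs.mul hL)
  refine hmain.congr_deriv ?_
  have hLS : Lc lam n (fun m => Sc lam t m (f t)) =
      (Real.cos (om lam n * t) : ℂ) * Lc lam n (f t)
        + (sfun (om lam n) t : ℂ) * Lc lam n (fun m => Lc lam m (f t)) := by
    simp only [Lc, Sc, om_neg, map_add, map_mul, Complex.conj_ofReal]
    ring
  rw [hLS, Lc_Lc hl]
  simp only [Sc]
  push_cast
  ring

/-! ### The flow on `A d` -/

lemma summable_two (b : A d) : Summable fun n => ‖b n‖ + ‖b (-n)‖ :=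
  (summable_norm b).add (summable_norm_neg b)

/-- The flow of the linearisation (`lam` is replaced by `|lam|` to keep the definition total). -/
def S (lam t : ℝ) (b : A d) : A d :=
  mk1 (fun n => Sc |lam| t n b) (Summable.of_nonneg_of_le (fun _ => norm_nonneg _)
    (fun n => norm_Sc_le (abs_nonneg lam) t n b) ((summable_two b).mul_left _))

lemma S_apply {lam : ℝ} (hl : 0 ≤ lam) (t : ℝ) (b : A d) (n : Idx d) :
    S lam t b n = Sc lam t n b := by
  simp [S, abs_of_nonneg hl]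

lemma norm_S_le {lam : ℝ} (hl : 0 ≤ lam) (t : ℝ) (b : A d) :
    ‖S lam t b‖ ≤ gam lam * (1 + |t|) * ‖b‖ := by
  refine (norm_le_of_le (fun n => ?_) ((summable_two b).mul_left
    ((2 + 2 * lam) * (1 + |t|)))).trans (le_of_eq ?_)
  · rw [S_apply hl]; exact norm_Sc_le hl t n b
  · rw [tsum_mul_left, (summable_norm b).tsum_add (summable_norm_neg b), tsum_norm_neg,
      ← norm_eq, gam]
    ring

lemma S_sub {lam : ℝ} (hl : 0 ≤ lam) (t : ℝ) (a b : A d) :
    S lam t (a - b) = S lam t a - S lam t b := by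
  ext n
  simp only [lp.coeFn_sub, Pi.sub_apply, S_apply hl]
  exact Sc_sub lam t n a b

lemma S_zero_time {lam : ℝ} (hl : 0 ≤ lam) (b : A d) : S lam 0 b = b := by
  ext n
  simp [S_apply hl, Sc, sfun]

lemma S_S_neg {lam : ℝ} (hl : 0 ≤ lam) (t : ℝ) (b : A d) : S lam t (S lam (-t) b) = b := by
  ext n
  rw [S_apply hl]
  have : ((S lam (-t) b : A d) : Idx d → ℂ) = fun m => Sc lam (-t) m b :=
    funext fun m => S_apply hl _ _ _
  rw [this]
  exact Sc_Sc_neg hl t n b

lemma continuous_sfun (w : ℝ) : Continuous (sfun w) :=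
  continuous_iff_continuousAt.2 fun t => (hasDerivAt_sfun w t).continuousAt

lemma continuous_S_time {lam : ℝ} (hl : 0 ≤ lam) (b : A d) :
    Continuous fun t => S lam t b := by
  rw [continuous_iff_continuousAt]
  intro t0
  rw [ContinuousAt, tendsto_iff_norm_sub_tendsto_zero]
  simp only [norm_eq, lp.coeFn_sub, Pi.sub_apply, S_apply hl]
  have hcont : ∀ n, Continuous fun t => Sc lam t n b := fun n => by
    have := continuous_sfun (om lam n)
    simp only [Sc]
    fun_prop
  have := tendsto_tsum_of_dominated_convergence (𝓕 := 𝓝 t0)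
    (f := fun t n => ‖Sc lam t n b - Sc lam t0 n b‖) (g := fun _ => (0:ℝ))
    (bound := fun n => 2 * ((2 + 2 * lam) * (2 + |t0|)) * (‖b n‖ + ‖b (-n)‖))
    ((summable_two b).mul_left _)
    (fun n => by
      have := ((hcont n).tendsto t0).sub (tendsto_const_nhds (x := Sc lam t0 n b))
      simpa using this.norm)
    (by
      filter_upwards [Metric.ball_mem_nhds t0 one_pos] with t ht n
      rw [Metric.mem_ball, Real.dist_eq] at ht
      have h3 : |t| ≤ |t0| + 1 := by linarith [abs_sub_abs_le_abs_sub t t0]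
      rw [norm_norm]
      refine (norm_sub_le _ _).trans ?_
      have ha := norm_Sc_le hl t n b
      have hb := norm_Sc_le hl t0 n b
      have hB : 0 ≤ ‖b n‖ + ‖b (-n)‖ := by positivity
      have hc : (2 + 2 * lam) * (1 + |t|) * (‖b n‖ + ‖b (-n)‖) ≤
          (2 + 2 * lam) * (2 + |t0|) * (‖b n‖ + ‖b (-n)‖) :=
        mul_le_mul_of_nonneg_right (mul_le_mul_of_nonneg_left (by linarith) (by linarith)) hB
      have hd : (2 + 2 * lam) * (1 + |t0|) * (‖b n‖ + ‖b (-n)‖) ≤
          (2 + 2 * lam) * (2 + |t0|) * (‖b n‖ + ‖b (-n)‖) :=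
        mul_le_mul_of_nonneg_right (mul_le_mul_of_nonneg_left (by linarith) (by linarith)) hB
      linarith)
  simpa using this

lemma continuous_S {lam : ℝ} (hl : 0 ≤ lam) :
    Continuous fun p : ℝ × A d => S lam p.1 p.2 := by
  rw [continuous_iff_continuousAt]
  rintro ⟨t0, b0⟩
  rw [ContinuousAt, tendsto_iff_norm_sub_tendsto_zero]
  refine squeeze_zero (fun _ => norm_nonneg _) (g := fun p : ℝ × A d =>
    gam lam * (1 + |p.1|) * ‖p.2 - b0‖ + ‖S lam p.1 b0 - S lam t0 b0‖) (fun p => ?_) ?_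
  · calc ‖S lam p.1 p.2 - S lam t0 b0‖
        = ‖S lam p.1 (p.2 - b0) + (S lam p.1 b0 - S lam t0 b0)‖ := by
          rw [S_sub hl]; congr 1; abel
      _ ≤ _ := (norm_add_le _ _).trans (add_le_add (norm_S_le hl _ _) le_rfl)
  · have hc := continuous_S_time hl b0
    have : Continuous fun p : ℝ × A d =>
        gam lam * (1 + |p.1|) * ‖p.2 - b0‖ + ‖S lam p.1 b0 - S lam t0 b0‖ := by fun_prop
    simpa using this.tendsto (t0, b0)

attribute [irreducible] S sfun

end Vale.Agent.P139
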