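import Mathlib

/-!
# P139: the law of independent standard complex Gaussians indexed by `ℤ^d`
-/

noncomputable section

namespace Vale.Agent.P139

open MeasureTheory ProbabilityTheory

/-- The standard complex Gaussian law: independent real and imaginary parts, each `N(0, 1/2)`. -/
def gaussC : Measure ℂ :=
  ((gaussianReal 0 (1 / 2)).prod (gaussianReal 0 (1 / 2))).map
    (fun p : ℝ × ℝ => (p.1 : ℂ) + (p.2 : ℂ) * Complex.I)

lemma measurable_toC : Measurable fun p : ℝ × ℝ => (p.1 : ℂ) + (p.2 : ℂ) * Complex.I := by
  fun_prop

instance : IsProbabilityMeasure gaussC :=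
  Measure.isProbabilityMeasure_map measurable_toC.aemeasurable

lemma integrable_norm_gaussC : Integrable (fun z : ℂ => ‖z‖) gaussC := by
  have h : Integrable id (gaussianReal 0 (1 / 2)) :=
    memLp_one_iff_integrable.1 (memLp_id_gaussianReal 1)
  rw [gaussC, integrable_map_measure (by fun_prop) measurable_toC.aemeasurable]
  exact ((h.comp_fst _).ofReal.add ((h.comp_snd _).ofReal.mul_const Complex.I)).norm

end Vale.Agent.P139
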