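import Mathlib

/-!
# P139: the weighted Wiener algebra on `ℤ^d` in scaled coordinates

An element `b` of `A d` stands for the Fourier series `∑ b n / wt k n * e^{i n·x}`;
its norm is the weighted `ℓ¹` norm of the Fourier coefficients.
-/

noncomputable section

namespace Vale.Agent.P139

open scoped ENNReal ComplexConjugate
open Filter Topology

abbrev Idx (d : ℕ) := Fin d → ℤ

abbrev A (d : ℕ) := lp (fun _ : Idx d => ℂ) 1

variable {d : ℕ}


/-- The Sobolev-type weight `(1 + ∑ |nᵢ|)^k`. -/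
def wt (k : ℕ) (n : Idx d) : ℝ := (1 + ∑ i, |(n i : ℝ)|) ^ k

lemma one_le_base (n : Idx d) : 1 ≤ 1 + ∑ i, |(n i : ℝ)| :=
  le_add_of_nonneg_right (Finset.sum_nonneg fun _ _ => abs_nonneg _)

lemma one_le_wt (k : ℕ) (n : Idx d) : 1 ≤ wt k n := one_le_pow₀ (one_le_base n)

lemma wt_pos (k : ℕ) (n : Idx d) : 0 < wt k n := lt_of_lt_of_le one_pos (one_le_wt k n)

lemma wt_ne (k : ℕ) (n : Idx d) : (wt k n : ℂ) ≠ 0 := by
  exact_mod_cast (wt_pos k n).ne'

@[simp] lemma wt_neg (k : ℕ) (n : Idx d) : wt k (-n) = wt k n := by simp [wt]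

@[simp] lemma wt_zero (k : ℕ) : wt k (0 : Idx d) = 1 := by simp [wt]

lemma wt_add_le (k : ℕ) (m l : Idx d) : wt k (m + l) ≤ wt k m * wt k l := by
  rw [wt, wt, wt, ← mul_pow]
  refine pow_le_pow_left₀ (le_trans zero_le_one (one_le_base _)) ?_ k
  have h : ∑ i, |(((m + l) i : ℤ) : ℝ)| ≤ ∑ i, |(m i : ℝ)| + ∑ i, |(l i : ℝ)| := by
    rw [← Finset.sum_add_distrib]
    refine Finset.sum_le_sum fun i _ => ?_
    simp only [Pi.add_apply, Int.cast_add]
    exact abs_add_le _ _
  have h1 : (0:ℝ) ≤ ∑ i, |(m i : ℝ)| := Finset.sum_nonneg fun _ _ => abs_nonneg _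
  have h2 : (0:ℝ) ≤ ∑ i, |(l i : ℝ)| := Finset.sum_nonneg fun _ _ => abs_nonneg _
  nlinarith

/-! ### `ℓ¹` basics -/

lemma summable_norm (b : A d) : Summable fun n => ‖b n‖ := by
  simpa using (lp.hasSum_norm (p := (1:ℝ≥0∞)) (by simp) b).summable

lemma norm_eq (b : A d) : ‖b‖ = ∑' n, ‖b n‖ := by
  simpa using lp.norm_eq_tsum_rpow (p := (1:ℝ≥0∞)) (by simp) b

lemma norm_le_of_le {b : A d} {f : Idx d → ℝ} (h : ∀ n, ‖b n‖ ≤ f n) (hf : Summable f) :
    ‖b‖ ≤ ∑' n, f n := by
  rw [norm_eq]; exact (summable_norm b).tsum_le_tsum h hf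

lemma norm_apply_le (b : A d) (n : Idx d) : ‖b n‖ ≤ ‖b‖ := by
  rw [norm_eq]; exact (summable_norm b).le_tsum n fun _ _ => norm_nonneg _

/-- Build an element from a summable family. -/
def mk1 (f : Idx d → ℂ) (h : Summable fun n => ‖f n‖) : A d :=
  ⟨f, memℓp_gen (by simpa using h)⟩

@[simp] lemma mk1_apply (f : Idx d → ℂ) (h : Summable fun n => ‖f n‖) (n : Idx d) :
    mk1 f h n = f n := rfl

lemma summable_norm_neg (b : A d) : Summable fun n => ‖b (-n)‖ :=
  (Equiv.neg (Idx d)).summable_iff.2 (summable_norm b)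

lemma tsum_norm_neg (b : A d) : ∑' n, ‖b (-n)‖ = ‖b‖ := by
  rw [norm_eq]; exact (Equiv.neg (Idx d)).tsum_eq (fun n => ‖b n‖)

/-- Complex conjugation of the function: `(star b)ₙ = conj b₋ₙ`. -/
def cj (b : A d) : A d :=
  mk1 (fun n => conj (b (-n))) (by simpa using summable_norm_neg b)

@[simp] lemma cj_apply (b : A d) (n : Idx d) : cj b n = conj (b (-n)) := rfl

lemma norm_cj (b : A d) : ‖cj b‖ = ‖b‖ := by
  rw [norm_eq (cj b)]; simpa using tsum_norm_neg b

lemma cj_sub (a b : A d) : cj (a - b) = cj a - cj b := by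
  ext n; simp

/-! ### Linear functionals given by a bounded symbol -/

/-- `b ↦ ∑ φ n * b n` for a bounded `φ`. -/
def pair (φ : Idx d → ℂ) (C : ℝ) (hφ : ∀ n, ‖φ n‖ ≤ C) : A d →L[ℂ] ℂ :=
  LinearMap.mkContinuous
    { toFun := fun b => ∑' n, φ n * b n
      map_add' := fun a b => by
        simp only [lp.coeFn_add, Pi.add_apply, mul_add]
        have key : ∀ c : A d, Summable fun n => φ n * c n := fun c =>
          Summable.of_norm_bounded ((summable_norm c).mul_left C) fun n => by
            rw [norm_mul]; exact mul_le_mul_of_nonneg_right (hφ n) (norm_nonneg _)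
        exact Summable.tsum_add (key a) (key b)
      map_smul' := fun c b => by
        simp only [lp.coeFn_smul, Pi.smul_apply, smul_eq_mul, RingHom.id_apply]
        rw [← tsum_mul_left]
        exact tsum_congr fun n => by ring }
    C fun b => by
      simp only [LinearMap.coe_mk, AddHom.coe_mk]
      calc ‖∑' n, φ n * b n‖ ≤ ∑' n, C * ‖b n‖ :=
            tsum_of_norm_bounded ((summable_norm b).mul_left C).hasSum fun n => by
              rw [norm_mul]; exact mul_le_mul_of_nonneg_right (hφ n) (norm_nonneg _)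
        _ = C * ‖b‖ := by rw [tsum_mul_left, norm_eq]

lemma pair_apply (φ : Idx d → ℂ) (C : ℝ) (hφ : ∀ n, ‖φ n‖ ≤ C) (b : A d) :
    pair φ C hφ b = ∑' n, φ n * b n := rfl

/-- The coordinate functional. -/
def coord (n : Idx d) : A d →L[ℂ] ℂ :=
  LinearMap.mkContinuous
    { toFun := fun b => b n
      map_add' := fun a b => by simp
      map_smul' := fun c b => by simp }
    1 fun b => by rw [one_mul]; exact norm_apply_le b n

@[simp] lemma coord_apply (n : Idx d) (b : A d) : coord n b = b n := rfl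

/-! ### Characters and evaluation -/

/-- `e^{i n·x}`. -/
def ee (n : Idx d) (x : Fin d → ℝ) : ℂ :=
  Complex.exp (((∑ i, (n i : ℝ) * x i : ℝ) : ℂ) * Complex.I)

lemma norm_ee (n : Idx d) (x : Fin d → ℝ) : ‖ee n x‖ = 1 :=
  Complex.norm_exp_ofReal_mul_I _

lemma ee_add (m l : Idx d) (x : Fin d → ℝ) : ee (m + l) x = ee m x * ee l x := by
  rw [ee, ee, ee, ← Complex.exp_add, ← add_mul, ← Complex.ofReal_add, ← Finset.sum_add_distrib]
  congr 3
  refine Finset.sum_congr rfl fun i _ => ?_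
  simp [add_mul]

@[simp] lemma ee_zero (x : Fin d → ℝ) : ee (0 : Idx d) x = 1 := by simp [ee]

lemma ee_neg (n : Idx d) (x : Fin d → ℝ) : ee (-n) x = conj (ee n x) := by
  rw [ee, ee, ← Complex.exp_conj]
  congr 1
  simp

lemma norm_symbol_le (k : ℕ) (n : Idx d) (x : Fin d → ℝ) : ‖ee n x / (wt k n : ℂ)‖ ≤ 1 := by
  rw [norm_div, norm_ee, Complex.norm_real, Real.norm_eq_abs, abs_of_pos (wt_pos k n)]
  exact (div_le_one (wt_pos k n)).2 (one_le_wt k n)

/-- Evaluation of the Fourier series at the point `x`. -/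
def ev (k : ℕ) (x : Fin d → ℝ) : A d →L[ℂ] ℂ :=
  pair (fun n => ee n x / (wt k n : ℂ)) 1 (fun n => norm_symbol_le k n x)

lemma ev_apply (k : ℕ) (x : Fin d → ℝ) (b : A d) :
    ev k x b = ∑' n, ee n x / (wt k n : ℂ) * b n := rfl

lemma summable_ev (k : ℕ) (x : Fin d → ℝ) (b : A d) :
    Summable fun n => ‖ee n x / (wt k n : ℂ) * b n‖ :=
  Summable.of_nonneg_of_le (fun _ => norm_nonneg _) (fun n => by
    rw [norm_mul]; exact mul_le_of_le_one_left (norm_nonneg _) (norm_symbol_le k n x))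
    (summable_norm b)

lemma ev_cj (k : ℕ) (x : Fin d → ℝ) (b : A d) : ev k x (cj b) = conj (ev k x b) := by
  rw [ev_apply, ev_apply, Complex.conj_tsum, ← (Equiv.neg (Idx d)).tsum_eq]
  refine tsum_congr fun n => ?_
  simp [ee_neg, map_div₀, Complex.conj_ofReal]

lemma ev_single_zero (k : ℕ) (x : Fin d → ℝ) (z : ℂ) :
    ev k x (lp.single 1 (0 : Idx d) z) = z := by
  rw [ev_apply, tsum_eq_single (0 : Idx d)]
  · simp
  · intro n hn
    simp [hn]

/-! ### Multiplication -/

/-- The ratio of weights appearing in the product of two monomials. -/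
def ratio (k : ℕ) (p : Idx d × Idx d) : ℝ := wt k (p.1 + p.2) / (wt k p.1 * wt k p.2)

/-- One term of the product. -/
def term (k : ℕ) (a b : A d) (p : Idx d × Idx d) : A d :=
  lp.single 1 (p.1 + p.2) ((ratio k p : ℂ) * (a p.1 * b p.2))

lemma norm_term_le (k : ℕ) (a b : A d) (p : Idx d × Idx d) :
    ‖term k a b p‖ ≤ ‖a p.1‖ * ‖b p.2‖ := by
  rw [term, lp.norm_single zero_lt_one, norm_mul, norm_mul, Complex.norm_real, Real.norm_eq_abs,
    abs_of_nonneg (show 0 ≤ ratio k p from
      div_nonneg (wt_pos k _).le (mul_nonneg (wt_pos k _).le (wt_pos k _).le))]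
  refine mul_le_of_le_one_left (mul_nonneg (norm_nonneg _) (norm_nonneg _)) ?_
  exact (div_le_one (mul_pos (wt_pos k _) (wt_pos k _))).2 (wt_add_le k _ _)

lemma summable_prod (a b : A d) : Summable fun p : Idx d × Idx d => ‖a p.1‖ * ‖b p.2‖ :=
  Summable.mul_of_nonneg (summable_norm a) (summable_norm b) (fun _ => norm_nonneg _)
    (fun _ => norm_nonneg _)

lemma summable_term (k : ℕ) (a b : A d) : Summable (term k a b) :=
  Summable.of_norm_bounded (summable_prod a b) (norm_term_le k a b)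

/-- The product of two Fourier series. -/
def mul (k : ℕ) (a b : A d) : A d := ∑' p, term k a b p

lemma norm_mul_le' (k : ℕ) (a b : A d) : ‖mul k a b‖ ≤ ‖a‖ * ‖b‖ := by
  refine (tsum_of_norm_bounded (summable_prod a b).hasSum (norm_term_le k a b)).trans ?_
  rw [norm_eq a, norm_eq b]
  exact ((summable_norm a).tsum_mul_tsum (summable_norm b) (summable_prod a b)).ge

lemma mul_sub_right' (k : ℕ) (a b c : A d) : mul k a (b - c) = mul k a b - mul k a c := by
  rw [mul, mul, mul, ← (summable_term k a b).tsum_sub (summable_term k a c)]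
  refine tsum_congr fun p => ?_
  rw [term, term, term, ← lp.single_sub]
  congr 1
  simp [mul_sub]

lemma mul_sub_left' (k : ℕ) (a b c : A d) : mul k (a - b) c = mul k a c - mul k b c := by
  rw [mul, mul, mul, ← (summable_term k a c).tsum_sub (summable_term k b c)]
  refine tsum_congr fun p => ?_
  rw [term, term, term, ← lp.single_sub]
  congr 1
  simp [sub_mul, mul_sub]

lemma ev_mul (k : ℕ) (x : Fin d → ℝ) (a b : A d) :
    ev k x (mul k a b) = ev k x a * ev k x b := by
  rw [mul, (ev k x).map_tsum (summable_term k a b), ev_apply k x a, ev_apply k x b,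
    tsum_mul_tsum_of_summable_norm (summable_ev k x a) (summable_ev k x b)]
  refine tsum_congr fun p => ?_
  rw [term, ev_apply, tsum_eq_single (p.1 + p.2)]
  · rw [lp.single_apply_self, ee_add, ratio]
    have h1 := wt_ne k p.1
    have h2 := wt_ne k p.2
    have h3 := wt_ne k (p.1 + p.2)
    push_cast
    field_simp
  · intro n hn
    simp [hn]

end Vale.Agent.P139
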