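import Vale.Agent.P139.Solve

/-!
# P139: random data `∑ gₙ ⟨n⟩^{-α} e^{in·x}` are near constants for large `α`
-/

noncomputable section

namespace Vale.Agent.P139

open scoped ENNReal ComplexConjugate
open Filter Topology MeasureTheory

variable {d : ℕ}

/-- `⟨n⟩^{-α}`. -/
def decay (al : ℝ) (n : Idx d) : ℝ := (1 + ∑ i, (n i : ℝ) ^ 2) ^ (-al / 2)

/-- A summable weight on `ℤ^d`. -/
def hw (n : Idx d) : ℝ := ∏ i, (1 + (n i : ℝ) ^ 2)⁻¹

lemma hw_nonneg (n : Idx d) : 0 ≤ hw n := Finset.prod_nonneg fun _ _ => by positivity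

lemma summable_one_int : Summable fun j : ℤ => (1 + (j : ℝ) ^ 2)⁻¹ := by
  refine Summable.of_norm_bounded_eventually
    (g := fun j : ℤ => 1 / (j : ℝ) ^ 2) (Real.summable_one_div_int_pow.2 one_lt_two) ?_
  filter_upwards [eventually_cofinite_ne (0 : ℤ)] with j hj
  have : (0:ℝ) < (j : ℝ) ^ 2 := by positivity
  rw [Real.norm_eq_abs, abs_of_nonneg (by positivity), one_div]
  exact inv_anti₀ this (by linarith)

lemma summable_hw : ∀ {d : ℕ}, Summable (hw (d := d)) := by
  intro d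
  induction d with
  | zero => exact Summable.of_finite
  | succ d ih =>
    rw [← (Fin.consEquiv fun _ : Fin (d + 1) => ℤ).summable_iff]
    have := summable_one_int.mul_of_nonneg ih (fun j => by positivity) hw_nonneg
    refine this.congr fun p => ?_
    simp [hw, Fin.prod_univ_succ, mul_comm]

lemma decay_mul_wt_le (k : ℕ) {al : ℝ} (hal : (k : ℝ) + 2 * d ≤ al) {n : Idx d} (hn : n ≠ 0) :
    decay al n * wt k n ≤
      (((d : ℝ) + 1) ^ k * (2 : ℝ) ^ (((k : ℝ) + 2 * d) / 2)) * (2 : ℝ) ^ (-al / 2) * hw n := by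
  have h1 : 1 ≤ qn n := by
    rcases qn_eq_zero_or_one_le n with h | h
    · refine absurd (funext fun i => ?_) hn
      have := (Finset.sum_eq_zero_iff_of_nonneg (fun j _ => sq_nonneg (n j : ℝ))).1 h i
        (Finset.mem_univ i)
      simpa using this
    · exact h
  have hq : (0:ℝ) < 1 + qn n := by linarith
  have hsq : 1 ≤ Real.sqrt (1 + qn n) := Real.one_le_sqrt.2 (by linarith)
  have hbase : 1 + ∑ i, |(n i : ℝ)| ≤ ((d : ℝ) + 1) * Real.sqrt (1 + qn n) := by
    have hi : ∀ i ∈ (Finset.univ : Finset (Fin d)), |(n i : ℝ)| ≤ Real.sqrt (1 + qn n) :=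
      fun i _ => by
        refine Real.abs_le_sqrt ?_
        have : (n i : ℝ) ^ 2 ≤ qn n := Finset.single_le_sum (f := fun j => (n j : ℝ) ^ 2)
          (fun _ _ => sq_nonneg _) (Finset.mem_univ i)
        linarith
    have := Finset.sum_le_card_nsmul _ _ _ hi
    simp at this
    nlinarith
  have hwt : wt k n ≤ ((d : ℝ) + 1) ^ k * (1 + qn n) ^ ((k : ℝ) / 2) := by
    refine (pow_le_pow_left₀ (le_trans zero_le_one (one_le_base n)) hbase k).trans (le_of_eq ?_)
    rw [mul_pow, Real.sqrt_eq_rpow, ← Real.rpow_natCast ((1 + qn n) ^ (1 / 2 : ℝ)),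
      ← Real.rpow_mul hq.le]
    congr 2; ring
  have hh : (1 + qn n) ^ (-(d : ℝ)) ≤ hw n := by
    rw [Real.rpow_neg hq.le, Real.rpow_natCast, hw, Finset.prod_inv_distrib]
    refine inv_anti₀ (Finset.prod_pos fun i _ => by positivity) ?_
    have := Finset.prod_le_prod (s := (Finset.univ : Finset (Fin d)))
      (f := fun i => 1 + (n i : ℝ) ^ 2) (g := fun _ => 1 + qn n) (fun i _ => by positivity)
      (fun i _ => by
        have : (n i : ℝ) ^ 2 ≤ qn n := Finset.single_le_sum (f := fun j => (n j : ℝ) ^ 2)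
          (fun _ _ => sq_nonneg _) (Finset.mem_univ i)
        linarith)
    simpa using this
  calc decay al n * wt k n
      ≤ (1 + qn n) ^ (-al / 2) * (((d : ℝ) + 1) ^ k * (1 + qn n) ^ ((k : ℝ) / 2)) :=
        mul_le_mul_of_nonneg_left hwt (Real.rpow_nonneg hq.le _)
    _ = ((d : ℝ) + 1) ^ k *
        ((1 + qn n) ^ (-((al - k - 2 * d) / 2)) * (1 + qn n) ^ (-(d : ℝ))) := by
        rw [← Real.rpow_add hq, mul_left_comm, ← Real.rpow_add hq]
        congr 2; ring
    _ ≤ ((d : ℝ) + 1) ^ k * ((2 : ℝ) ^ (-((al - k - 2 * d) / 2)) * hw n) := by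
        refine mul_le_mul_of_nonneg_left ?_ (by positivity)
        refine mul_le_mul (Real.rpow_le_rpow_of_nonpos two_pos (by linarith) (by linarith)) hh
          (Real.rpow_nonneg hq.le _) (Real.rpow_nonneg two_pos.le _)
    _ = _ := by
        have e : -((al - k - 2 * d) / 2) = ((k : ℝ) + 2 * d) / 2 + -al / 2 := by ring
        rw [e, Real.rpow_add two_pos]
        ring

/-- From smallness of the nonconstant part to a long solution, for one datum. -/
lemma solution_of_small {m k : ℕ} (hk : 2 ≤ k) (R : ℝ) : ∃ C : ℝ, 0 < C ∧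
    ∀ (al T δ : ℝ) (g : Idx d → ℂ), 0 ≤ T → 0 ≤ δ → ‖g 0‖ ≤ R →
      (∑' n, ENNReal.ofReal (if n = 0 then 0 else ‖g n‖ * (decay al n * wt k n))) ≤ ENNReal.ofReal δ →
      C * (1 + T) ^ 4 * δ ≤ 1 →
      ∃ c, IsSolution d m k T (fun n => g n * (decay al n : ℂ)) c := by
  obtain ⟨C, hC0, hC⟩ := exists_long_solution d m k hk R
  refine ⟨C, hC0, fun al T δ g hT hδ hR hX hsmall => ?_⟩
  let f : Idx d → ℝ := fun n => if n = 0 then 0 else ‖g n‖ * (decay al n * wt k n)
  have hdec : ∀ n : Idx d, 0 ≤ decay al n := fun n =>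
    Real.rpow_nonneg (by positivity) _
  have hf0 : ∀ n, 0 ≤ f n := fun n => by
    simp only [f]; split
    · rfl
    · exact mul_nonneg (norm_nonneg _) (mul_nonneg (hdec n) (wt_pos k n).le)
  have hne : (∑' n, ENNReal.ofReal (f n)) ≠ ⊤ := (hX.trans_lt ENNReal.ofReal_lt_top).ne
  have hfs : Summable f :=
    (ENNReal.summable_toReal hne).congr fun n => ENNReal.toReal_ofReal (hf0 n)
  have hsum : ∑' n, f n ≤ δ := by
    rw [← ENNReal.ofReal_le_ofReal_iff hδ, ENNReal.ofReal_tsum_of_nonneg hf0 hfs]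
    exact hX
  let ph : ℂ := if g 0 = 0 then 1 else g 0 / (‖g 0‖ : ℂ)
  have hph : ‖ph‖ = 1 := by
    simp only [ph]; split <;> simp_all
  have hph0 : ph ≠ 0 := fun h => by simp [h] at hph
  have hphg : ph * (‖g 0‖ : ℂ) = g 0 := by
    simp only [ph]; split
    · simp_all
    · next h => exact div_mul_cancel₀ _ (by simpa using h)
  let v : Idx d → ℂ := fun n => if n = 0 then 0 else g n * ((decay al n * wt k n : ℝ) : ℂ) / ph
  have hv : ∀ n, ‖v n‖ = f n := fun n => by
    simp only [v, f]; split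
    · simp
    · rw [norm_div, hph, div_one, norm_mul, Complex.norm_real, Real.norm_eq_abs,
        abs_of_nonneg (mul_nonneg (hdec n) (wt_pos k n).le)]
  have hvs : Summable fun n => ‖v n‖ := by simpa [hv] using hfs
  have hnorm : ‖mk1 v hvs‖ ≤ δ := by
    rw [norm_eq]; simpa [hv] using hsum
  have hsmall' : C * (1 + T) ^ 4 * ‖mk1 v hvs‖ ≤ 1 :=
    le_trans (mul_le_mul_of_nonneg_left hnorm (by positivity)) hsmall
  obtain ⟨c, hc⟩ := hC ‖g 0‖ (norm_nonneg _) hR ph hph (mk1 v hvs) T hT hsmall'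
  refine ⟨c, ?_⟩
  convert hc using 1
  funext n
  by_cases h : n = 0
  · subst h
    simp [v, decay, hphg]
  · simp only [lp.coeFn_add, Pi.add_apply, ne_eq, h, not_false_eq_true, lp.single_apply_ne,
      zero_add, mk1_apply, v, if_false]
    have := wt_ne k n
    push_cast
    field_simp

lemma eventually_const_mul_rpow_lt (c : ℝ) {e b : ℝ} (he : 0 < e) (hb : 0 < b) :
    ∀ᶠ al : ℝ in atTop, c * (2 : ℝ) ^ (-(al * e)) < b := by
  have h1 : Tendsto (fun al : ℝ => Real.log 2 * (al * e)) atTop atTop :=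
    (tendsto_id.atTop_mul_const he).const_mul_atTop (Real.log_pos one_lt_two)
  have h2 : Tendsto (fun al : ℝ => c * (2 : ℝ) ^ (-(al * e))) atTop (𝓝 0) := by
    have := (Real.tendsto_exp_neg_atTop_nhds_zero.comp h1).const_mul c
    rw [mul_zero] at this
    refine this.congr fun al => ?_
    rw [Function.comp, Real.rpow_def_of_pos two_pos]
    ring_nf
  exact h2.eventually (eventually_lt_nhds hb)

/-- The general theorem: any random coefficients with bounded first absolute moments. -/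
theorem long_solutions_whp {Ω : Type*} [MeasurableSpace Ω] (P : Measure Ω) [IsProbabilityMeasure P]
    (g : Idx d → Ω → ℂ) (hg : ∀ n, Measurable (g n)) {M : ℝ} (hM : 0 ≤ M)
    (hgM : ∀ n, ∫⁻ o, ENNReal.ofReal ‖g n o‖ ∂P ≤ ENNReal.ofReal M)
    {m k : ℕ} (hk : 2 ≤ k) {η : ℝ} (hη : 0 < η) :
    ∃ al0 : ℝ, ∀ al > al0, ∃ G : Set Ω, MeasurableSet G ∧ 1 - η ≤ (P G).toReal ∧
      ∀ o ∈ G, ∃ c, IsSolution d m k ((2 : ℝ) ^ (al / 32)) (fun n => g n o * (decay al n : ℂ)) c := by
  set R := 2 * M / η + 1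
  obtain ⟨C, hC0, hC⟩ := solution_of_small (d := d) (m := m) hk R
  set B := ((d : ℝ) + 1) ^ k * (2 : ℝ) ^ (((k : ℝ) + 2 * d) / 2)
  set H := ∑' n : Idx d, hw n
  have hH : 0 ≤ H := tsum_nonneg hw_nonneg
  have hB : 0 ≤ B := by positivity
  obtain ⟨al0, hal0⟩ := eventually_atTop.1 (((eventually_ge_atTop ((k : ℝ) + 2 * d)).and
    (eventually_ge_atTop (0 : ℝ))).and
    ((eventually_const_mul_rpow_lt (M * B * H) (show (0:ℝ) < 1/4 by norm_num) (half_pos hη)).and
    (eventually_const_mul_rpow_lt (16 * C) (show (0:ℝ) < 1/8 by norm_num) one_pos)))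
  refine ⟨al0, fun al hal => ?_⟩
  obtain ⟨⟨hal1, hal2⟩, hs1, hs2⟩ := hal0 al hal.le
  set δ := (2 : ℝ) ^ (-(al * (1/4))) with hδdef
  have hδ : 0 < δ := by positivity
  set T := (2 : ℝ) ^ (al / 32) with hTdef
  have hT1 : 1 ≤ T := Real.one_le_rpow one_le_two (by linarith)
  have hsmall : C * (1 + T) ^ 4 * δ ≤ 1 := by
    refine le_trans ?_ hs2.le
    calc C * (1 + T) ^ 4 * δ ≤ C * (2 * T) ^ 4 * δ := by gcongr; linarith
      _ = 16 * C * (T ^ 4 * δ) := by ring
      _ = _ := by
          rw [hTdef, hδdef, ← Real.rpow_natCast, ← Real.rpow_mul two_pos.le,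
            ← Real.rpow_add two_pos]
          congr 2; push_cast; ring
  let X : Ω → ℝ≥0∞ := fun o =>
    ∑' n, ENNReal.ofReal (if n = 0 then 0 else ‖g n o‖ * (decay al n * wt k n))
  have hXm : ∀ n : Idx d, Measurable fun o =>
      ENNReal.ofReal (if n = 0 then 0 else ‖g n o‖ * (decay al n * wt k n)) := fun n => by
    split
    · exact measurable_const
    · exact ((hg n).norm.mul_const _).ennreal_ofReal
  have hX : Measurable X := Measurable.ennreal_tsum hXm
  have hEX : ∫⁻ o, X o ∂P ≤ ENNReal.ofReal (M * (B * (2 : ℝ) ^ (-al / 2) * H)) := by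
    simp only [X]
    rw [lintegral_tsum fun n => (hXm n).aemeasurable]
    have hcs : Summable fun n : Idx d => M * (B * (2 : ℝ) ^ (-al / 2) * hw n) :=
      (summable_hw.mul_left _).mul_left _
    rw [← tsum_mul_left, ← tsum_mul_left, ENNReal.ofReal_tsum_of_nonneg
      (fun n => mul_nonneg hM (mul_nonneg (by positivity) (hw_nonneg n))) hcs]
    refine ENNReal.tsum_le_tsum fun n => ?_
    by_cases h : n = 0
    · simp [h]
    · simp only [h, if_false]
      have hc : 0 ≤ decay al n * wt k n :=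
        mul_nonneg (Real.rpow_nonneg (by positivity) _) (wt_pos k n).le
      simp only [ENNReal.ofReal_mul (norm_nonneg _)]
      rw [lintegral_mul_const _ (hg n).norm.ennreal_ofReal, ENNReal.ofReal_mul hM]
      exact mul_le_mul' (hgM n) (ENNReal.ofReal_le_ofReal (decay_mul_wt_le k hal1 h))
  let G : Set Ω := {o | ‖g 0 o‖ ≤ R} ∩ {o | X o ≤ ENNReal.ofReal δ}
  have hGm : MeasurableSet G :=
    (measurableSet_le (hg 0).norm measurable_const).inter (measurableSet_le hX measurable_const)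
  refine ⟨G, hGm, ?_, fun o ho => hC al T δ (fun n => g n o) (by linarith) hδ.le ho.1 ho.2 hsmall⟩
  have hRpos : 0 < R := by positivity
  have hb1 : P {o | R ≤ ‖g 0 o‖} ≤ ENNReal.ofReal (η / 2) := by
    have hset : {o | R ≤ ‖g 0 o‖} = {o | ENNReal.ofReal R ≤ ENNReal.ofReal ‖g 0 o‖} := by
      exact Set.ext fun o => (ENNReal.ofReal_le_ofReal_iff (norm_nonneg _)).symm
    rw [hset]
    refine (meas_ge_le_lintegral_div (hg 0).norm.ennreal_ofReal.aemeasurable
      (by simpa using hRpos) ENNReal.ofReal_ne_top).trans ?_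
    refine (ENNReal.div_le_div_right (hgM 0) _).trans ?_
    rw [← ENNReal.ofReal_div_of_pos hRpos]
    refine ENNReal.ofReal_le_ofReal ((div_le_iff₀ hRpos).2 ?_)
    have : η / 2 * R = M + η / 2 := by simp only [R]; field_simp
    linarith
  have hb2 : P {o | ENNReal.ofReal δ ≤ X o} ≤ ENNReal.ofReal (η / 2) := by
    refine (meas_ge_le_lintegral_div hX.aemeasurable (by simpa using hδ) ENNReal.ofReal_ne_top).trans ?_
    refine (ENNReal.div_le_div_right hEX _).trans ?_
    rw [← ENNReal.ofReal_div_of_pos hδ]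
    refine ENNReal.ofReal_le_ofReal ((div_le_iff₀ hδ).2 ?_)
    have e : (2 : ℝ) ^ (-al / 2) = δ * δ := by
      rw [hδdef, ← Real.rpow_add two_pos]; congr 1; ring
    rw [e]
    calc M * (B * (δ * δ) * H) = M * B * H * δ * δ := by ring
      _ ≤ η / 2 * δ := mul_le_mul_of_nonneg_right hs1.le hδ.le
  have hcompl : P Gᶜ ≤ ENNReal.ofReal η := by
    refine (measure_mono (t := {o | R ≤ ‖g 0 o‖} ∪ {o | ENNReal.ofReal δ ≤ X o}) ?_).trans ?_
    · intro o ho
      simp only [G, Set.mem_compl_iff, Set.mem_inter_iff, Set.mem_ofPred_eq, not_and_or, not_le] at ho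
      exact ho.imp le_of_lt le_of_lt
    · refine (measure_union_le _ _).trans ((add_le_add hb1 hb2).trans (le_of_eq ?_))
      rw [← ENNReal.ofReal_add (by linarith) (by linarith), add_halves]
  have h1 : P.real Gᶜ ≤ η := by
    simpa [Measure.real, hη.le] using ENNReal.toReal_mono ENNReal.ofReal_ne_top hcompl
  have h2 := probReal_compl_eq_one_sub hGm (μ := P)
  rw [h2] at h1
  simp only [Measure.real] at h1
  linarith

end Vale.Agent.P139
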