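import Vale.Agent.P139.Flow

/-!
# P139: the quadratic remainder of `(a + u)^i (a + conj u)^j`
-/

noncomputable section

namespace Vale.Agent.P139

open scoped ENNReal ComplexConjugate

variable {d : ℕ}

/-- A map vanishing at `0` with Lipschitz constant `K r` on the ball of radius `r ≤ 1`. -/
def Quad (K : ℝ) (Q : A d → A d) : Prop :=
  0 ≤ K ∧ Q 0 = 0 ∧ ∀ r : ℝ, r ≤ 1 → ∀ u v : A d, ‖u‖ ≤ r → ‖v‖ ≤ r →
    ‖Q u - Q v‖ ≤ K * r * ‖u - v‖

/-- A globally Lipschitz map vanishing at `0`. -/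
def Lip (c : ℝ) (G : A d → A d) : Prop :=
  0 ≤ c ∧ G 0 = 0 ∧ ∀ u v : A d, ‖G u - G v‖ ≤ c * ‖u - v‖

lemma Quad.norm_le {K : ℝ} {Q : A d → A d} (h : Quad K Q) {r : ℝ} (hr1 : r ≤ 1) {u : A d}
    (hu : ‖u‖ ≤ r) : ‖Q u‖ ≤ K * r * ‖u‖ := by
  have h0 : (0:ℝ) ≤ r := (norm_nonneg u).trans hu
  simpa [h.2.1] using h.2.2 r hr1 u 0 hu (by simpa using h0)

lemma Quad.mono {K K' : ℝ} {Q : A d → A d} (h : Quad K Q) (hK : K ≤ K') : Quad K' Q :=
  ⟨h.1.trans hK, h.2.1, fun r hr u v hu hv => (h.2.2 r hr u v hu hv).trans (by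
    have h0 : (0:ℝ) ≤ r := (norm_nonneg u).trans hu
    gcongr)⟩

lemma Quad.add {K L : ℝ} {P Q : A d → A d} (h : Quad K P) (h' : Quad L Q) :
    Quad (K + L) (fun u => P u + Q u) := by
  refine ⟨add_nonneg h.1 h'.1, by simp [h.2.1, h'.2.1], fun r hr u v hu hv => ?_⟩
  rw [add_sub_add_comm]
  refine (norm_add_le _ _).trans ?_
  have h1 := h.2.2 r hr u v hu hv
  have h2 := h'.2.2 r hr u v hu hv
  linarith

lemma Quad.smul {K M : ℝ} {P : A d → A d} (h : Quad K P) (c : ℂ) (hc : ‖c‖ ≤ M) :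
    Quad (M * K) (fun u => c • P u) := by
  refine ⟨mul_nonneg ((norm_nonneg c).trans hc) h.1, by simp [h.2.1], fun r hr u v hu hv => ?_⟩
  rw [← smul_sub, _root_.norm_smul, mul_assoc M, mul_assoc M]
  exact mul_le_mul hc (h.2.2 r hr u v hu hv) (norm_nonneg _) ((norm_nonneg c).trans hc)

lemma mul_zero_left' (k : ℕ) (b : A d) : mul k (0 : A d) b = 0 := by
  simpa using mul_sub_left' k (0 : A d) 0 b

lemma norm_mul_sub_le (k : ℕ) (a a' b b' : A d) :
    ‖mul k a b - mul k a' b'‖ ≤ ‖a - a'‖ * ‖b‖ + ‖a'‖ * ‖b - b'‖ := by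
  have e : mul k a b - mul k a' b' = mul k (a - a') b + mul k a' (b - b') := by
    rw [mul_sub_left', mul_sub_right']; abel
  rw [e]
  exact (norm_add_le _ _).trans (add_le_add (norm_mul_le' _ _ _) (norm_mul_le' _ _ _))

lemma Quad.mul_left {K : ℝ} {P : A d → A d} (h : Quad K P) (k : ℕ) {X : A d → A d}
    (hX : Lip 1 X) : Quad (2 * K) (fun u => mul k (X u) (P u)) := by
  refine ⟨by linarith [h.1], by simp [hX.2.1, mul_zero_left'], fun r hr u v hu hv => ?_⟩
  have h0 : (0:ℝ) ≤ r := (norm_nonneg u).trans hu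
  refine (norm_mul_sub_le k _ _ _ _).trans ?_
  have e1 : ‖X u - X v‖ ≤ ‖u - v‖ := by simpa using hX.2.2 u v
  have e2 : ‖X v‖ ≤ 1 := by
    have := hX.2.2 v 0
    simp [hX.2.1] at this
    linarith
  have e3 : ‖P u‖ ≤ K * r := (h.norm_le hr hu).trans (by
    have : ‖u‖ ≤ 1 := hu.trans hr
    nlinarith [mul_nonneg h.1 h0])
  have e4 := h.2.2 r hr u v hu hv
  have p1 := mul_le_mul e1 e3 (norm_nonneg _) (norm_nonneg _)
  have p2 := mul_le_mul e2 e4 (norm_nonneg _) zero_le_one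
  linarith

lemma Lip.mul_quad {c : ℝ} {G : A d → A d} (h : Lip c G) (k : ℕ) {X : A d → A d}
    (hX : Lip 1 X) : Quad (2 * c) (fun u => mul k (X u) (G u)) := by
  refine ⟨by linarith [h.1], by simp [hX.2.1, mul_zero_left'], fun r _ u v hu hv => ?_⟩
  have h0 : (0:ℝ) ≤ r := (norm_nonneg u).trans hu
  refine (norm_mul_sub_le k _ _ _ _).trans ?_
  have e1 : ‖X u - X v‖ ≤ ‖u - v‖ := by simpa using hX.2.2 u v
  have e2 : ‖X v‖ ≤ r := by
    have := hX.2.2 v 0
    simp [hX.2.1] at this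
    linarith
  have e3 : ‖G u‖ ≤ c * r := by
    have := h.2.2 u 0
    simp [h.2.1] at this
    exact this.trans (mul_le_mul_of_nonneg_left hu h.1)
  have p1 := mul_le_mul e1 e3 (norm_nonneg _) (norm_nonneg _)
  have p2 := mul_le_mul e2 (h.2.2 u v) (norm_nonneg _) h0
  linarith

lemma lip_id : Lip 1 (fun u : A d => u) := ⟨zero_le_one, rfl, fun u v => by simp⟩

lemma lip_cj : Lip 1 (cj : A d → A d) :=
  ⟨zero_le_one, by simpa using cj_sub (0 : A d) 0, fun u v => by simp [← cj_sub, norm_cj]⟩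

lemma lip_comb (i j : ℕ) : Lip ((i : ℝ) + j) (fun u : A d => (i : ℂ) • u + (j : ℂ) • cj u) := by
  refine ⟨by positivity, by simp [lip_cj.2.1], fun u v => ?_⟩
  rw [add_sub_add_comm, ← smul_sub, ← smul_sub, ← cj_sub]
  refine (norm_add_le _ _).trans (le_of_eq ?_)
  rw [_root_.norm_smul, _root_.norm_smul, norm_cj, Complex.norm_natCast, Complex.norm_natCast]
  ring

/-- `(a + u)^i (a + conj u)^j` minus its affine part, as an element of the algebra. -/
def rem (k : ℕ) (a : ℝ) : ℕ → ℕ → A d → A d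
  | 0, 0, _ => 0
  | 0, j + 1, u => ((a : ℂ) • rem k a 0 j u + mul k (cj u) (rem k a 0 j u))
      + ((a : ℂ) ^ (0 + j - 1)) • mul k (cj u) ((0 : ℕ) • u + (j : ℂ) • cj u)
  | i + 1, j, u => ((a : ℂ) • rem k a i j u + mul k u (rem k a i j u))
      + ((a : ℂ) ^ (i + j - 1)) • mul k u ((i : ℂ) • u + (j : ℂ) • cj u)

lemma quad_rem (k : ℕ) (R : ℝ) : ∀ i j : ℕ, ∃ K, ∀ a : ℝ, |a| ≤ R →
    Quad K (rem (d := d) k a i j) := by
  have step : ∀ (a : ℝ) (M : ℝ) (X : A d → A d) (i j e : ℕ) (K : ℝ) (P : A d → A d),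
      |a| ≤ M → Lip 1 X → Quad K P →
      Quad (M * K + 2 * K + M ^ e * (2 * ((i : ℝ) + j)))
        (fun u => ((a : ℂ) • P u + mul k (X u) (P u))
          + ((a : ℂ) ^ e) • mul k (X u) ((i : ℂ) • u + (j : ℂ) • cj u)) := by
    intro a M X i j e K P ha hX hP
    refine ((hP.smul (a : ℂ) (M := M) (by simpa using ha)).add (hP.mul_left k hX)).add
      (((lip_comb i j).mul_quad k hX).smul _ ?_)
    rw [norm_pow]
    exact pow_le_pow_left₀ (norm_nonneg _) (by simpa using ha) e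
  intro i
  induction i with
  | zero =>
    intro j
    induction j with
    | zero =>
      exact ⟨0, fun a _ => ⟨le_rfl, by simp [rem], fun r _ u v _ _ => by simp [rem]⟩⟩
    | succ j ih =>
      obtain ⟨K, hK⟩ := ih
      refine ⟨R * K + 2 * K + R ^ (0 + j - 1) * (2 * (((0 : ℕ) : ℝ) + j)), fun a ha => ?_⟩
      have h := step a R cj 0 j (0 + j - 1) K _ ha lip_cj (hK a ha)
      have e : rem k a 0 (j + 1) = fun u : A d =>
          ((a : ℂ) • rem k a 0 j u + mul k (cj u) (rem k a 0 j u))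
          + ((a : ℂ) ^ (0 + j - 1)) • mul k (cj u) (((0 : ℕ) : ℂ) • u + (j : ℂ) • cj u) := by
        funext u
        simp only [rem, Nat.cast_zero, zero_smul]
      rw [e]; exact h
  | succ i ih =>
    intro j
    obtain ⟨K, hK⟩ := ih j
    refine ⟨R * K + 2 * K + R ^ (i + j - 1) * (2 * ((i : ℝ) + j)), fun a ha => ?_⟩
    have h := step a R _ i j (i + j - 1) K _ ha lip_id (hK a ha)
    have e : rem k a (i + 1) j = fun u : A d =>
        ((a : ℂ) • rem k a i j u + mul k u (rem k a i j u))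
        + ((a : ℂ) ^ (i + j - 1)) • mul k u ((i : ℂ) • u + (j : ℂ) • cj u) := by
      funext u
      rw [rem]
    rw [e]; exact h

lemma ev_rem (k : ℕ) (a : ℝ) (x : Fin d → ℝ) (u : A d) : ∀ i j : ℕ,
    ((a : ℂ) + ev k x u) ^ i * ((a : ℂ) + conj (ev k x u)) ^ j
      = (a : ℂ) ^ (i + j) + (a : ℂ) ^ (i + j - 1) * (i * ev k x u + j * conj (ev k x u))
        + ev k x (rem k a i j u) := by
  intro i
  induction i with
  | zero =>
    intro j
    induction j with
    | zero => simp [rem]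
    | succ j ih =>
      have e : (a : ℂ) * ((a : ℂ) ^ (0 + j - 1) * ((j : ℂ) * conj (ev k x u)))
          = (a : ℂ) ^ j * ((j : ℂ) * conj (ev k x u)) := by
        rcases j with _ | j
        · simp
        · rw [← mul_assoc, ← pow_succ']; simp
      simp only [rem, pow_zero, one_mul, Nat.cast_zero, zero_mul, zero_add, map_add, map_smul,
        ev_mul, ev_cj, smul_eq_mul, zero_smul] at ih e ⊢
      rw [pow_succ', ih]
      have ej : j + 1 - 1 = j := rfl
      rw [ej]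
      push_cast
      linear_combination e
  | succ i ih =>
    intro j
    have e : (a : ℂ) * ((a : ℂ) ^ (i + j - 1) * (i * ev k x u + j * conj (ev k x u)))
        = (a : ℂ) ^ (i + j) * (i * ev k x u + j * conj (ev k x u)) := by
      rcases Nat.eq_zero_or_pos (i + j) with h | h
      · obtain ⟨rfl, rfl⟩ := Nat.add_eq_zero_iff.mp h; simp
      · rw [← mul_assoc, ← pow_succ', Nat.sub_add_cancel h]
    have ej : i + 1 + j - 1 = i + j := by omega
    simp only [rem, map_add, map_smul, ev_mul, ev_cj, smul_eq_mul]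
    rw [pow_succ', mul_assoc, ih j, ej]
    have e2 : i + 1 + j = i + j + 1 := by omega
    rw [e2]
    push_cast
    linear_combination e

end Vale.Agent.P139
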