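import Vale.Agent.P139.L1
import Vale.Agent.P139.Flow
import Vale.Agent.P139.Defs

/-!
# P139: spatial derivatives of a series in the weighted algebra, `k ≥ 2`
-/

noncomputable section

namespace Vale.Agent.P139

open scoped ENNReal ComplexConjugate
open Filter Topology

variable {d : ℕ}

lemma abs_coord_le (n : Idx d) (i : Fin d) : |(n i : ℝ)| ≤ 1 + ∑ j, |(n j : ℝ)| :=
  le_add_of_nonneg_of_le zero_le_one
    (Finset.single_le_sum (f := fun j => |(n j : ℝ)|) (fun _ _ => abs_nonneg _) (Finset.mem_univ i))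

lemma qn_le_wt {k : ℕ} (hk : 2 ≤ k) (n : Idx d) : qn n ≤ wt k n := by
  have h1 : qn n ≤ (∑ i, |(n i : ℝ)|) ^ 2 := by
    rw [qn, pow_two (∑ i, |(n i : ℝ)|), Finset.sum_mul]
    refine Finset.sum_le_sum fun i _ => ?_
    rw [← sq_abs, pow_two]
    exact mul_le_mul_of_nonneg_left
      (Finset.single_le_sum (f := fun j => |(n j : ℝ)|) (fun _ _ => abs_nonneg _)
        (Finset.mem_univ i)) (abs_nonneg _)
  refine h1.trans ((pow_le_pow_left₀ (Finset.sum_nonneg fun _ _ => abs_nonneg _)
    (le_add_of_nonneg_left zero_le_one) 2).trans ?_)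
  exact pow_le_pow_right₀ (one_le_base n) hk

/-- The Laplacian followed by evaluation at `x`. -/
def lapAt (k : ℕ) (hk : 2 ≤ k) (x : Fin d → ℝ) : A d →L[ℂ] ℂ :=
  pair (fun n => -((qn n : ℂ)) * (ee n x / (wt k n : ℂ))) 1 (fun n => by
    rw [norm_mul, norm_neg, norm_div, norm_ee, Complex.norm_real, Complex.norm_real,
      Real.norm_eq_abs, Real.norm_eq_abs, abs_of_nonneg (qn_nonneg n), abs_of_pos (wt_pos k n),
      mul_one_div]
    exact (div_le_one (wt_pos k n)).2 (qn_le_wt hk n))

lemma lapAt_apply (k : ℕ) (hk : 2 ≤ k) (x : Fin d → ℝ) (b : A d) :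
    lapAt k hk x b = ∑' n, -((qn n : ℂ)) * (ee n x / (wt k n : ℂ)) * b n := rfl

lemma lapAt_single_zero (k : ℕ) (hk : 2 ≤ k) (x : Fin d → ℝ) (z : ℂ) :
    lapAt k hk x (lp.single 1 (0 : Idx d) z) = 0 := by
  rw [lapAt_apply, tsum_eq_single (0 : Idx d)]
  · simp [qn]
  · intro n hn
    simp [hn]

lemma hasDerivAt_ee_update (n : Idx d) (x : Fin d → ℝ) (i : Fin d) (y : ℝ) :
    HasDerivAt (fun z => ee n (Function.update x i z))
      (((n i : ℝ) : ℂ) * Complex.I * ee n (Function.update x i y)) y := by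
  have hlin : HasDerivAt (fun z => ∑ j, (n j : ℝ) * Function.update x i z j) (n i : ℝ) y := by
    have := HasDerivAt.fun_sum (u := Finset.univ) (A := fun j z => (n j : ℝ) * Function.update x i z j)
      (A' := fun j => if j = i then (n i : ℝ) else 0) (x := y) (fun j _ => by
        by_cases h : j = i
        · subst h; simpa using (hasDerivAt_id y).const_mul (n j : ℝ)
        · simpa [h, Function.update_of_ne h] using hasDerivAt_const y ((n j : ℝ) * x j))
    simpa using this
  have := ((hlin.ofReal_comp).mul_const Complex.I).cexp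
  refine this.congr_deriv ?_
  rw [ee]; ring

lemma spatial_derivs {k : ℕ} (hk : 2 ≤ k) (b : A d) (x : Fin d → ℝ) :
    ∃ (Du : Fin d → ℝ → ℂ) (DDu : Fin d → ℂ),
      (∀ i y, HasDerivAt (fun z => ev k (Function.update x i z) b) (Du i y) y) ∧
      (∀ i, HasDerivAt (Du i) (DDu i) (x i)) ∧
      ∑ i, DDu i = lapAt k hk x b := by
  let T1 : Fin d → ℝ → Idx d → ℂ := fun i y n =>
    ((n i : ℝ) : ℂ) * Complex.I * (ee n (Function.update x i y) / (wt k n : ℂ) * b n)
  let T2 : Fin d → ℝ → Idx d → ℂ := fun i y n =>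
    -(((n i : ℝ) ^ 2 : ℝ) : ℂ) * (ee n (Function.update x i y) / (wt k n : ℂ) * b n)
  have hsq : ∀ (i : Fin d) (n : Idx d), (n i : ℝ) ^ 2 ≤ wt k n := fun i n => by
    refine le_trans ?_ (qn_le_wt hk n)
    exact Finset.single_le_sum (f := fun j => (n j : ℝ) ^ 2) (fun _ _ => sq_nonneg _)
      (Finset.mem_univ i)
  have hb1 : ∀ i y n, ‖T1 i y n‖ ≤ ‖b n‖ := fun i y n => by
    simp only [T1, norm_mul, norm_div, norm_ee, Complex.norm_real, Complex.norm_I,
      Real.norm_eq_abs, abs_of_pos (wt_pos k n)]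
    have h1 : |(n i : ℝ)| ≤ wt k n :=
      (abs_coord_le n i).trans (le_self_pow₀ (one_le_base n) (by omega))
    rw [mul_one, ← mul_assoc, mul_one_div]
    exact mul_le_of_le_one_left (norm_nonneg _) ((div_le_one (wt_pos k n)).2 h1)
  have hb2 : ∀ i y n, ‖T2 i y n‖ ≤ ‖b n‖ := fun i y n => by
    simp only [T2, norm_mul, norm_neg, norm_div, norm_ee, Complex.norm_real,
      Real.norm_eq_abs, abs_of_pos (wt_pos k n)]
    rw [abs_of_nonneg (sq_nonneg _), ← mul_assoc, mul_one_div]
    exact mul_le_of_le_one_left (norm_nonneg _) ((div_le_one (wt_pos k n)).2 (hsq i n))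
  refine ⟨fun i y => ∑' n, T1 i y n, fun i => ∑' n, T2 i (x i) n, fun i y => ?_, fun i => ?_, ?_⟩
  · exact hasDerivAt_tsum (g := fun n z => ee n (Function.update x i z) / (wt k n : ℂ) * b n)
      (g' := fun n z => T1 i z n) (summable_norm b)
      (fun n z => (((hasDerivAt_ee_update n x i z).div_const _).mul_const _).congr_deriv
        (by simp only [T1]; ring))
      (fun n z => hb1 i z n) (y₀ := y) (summable_ev k _ b).of_norm y
  · exact hasDerivAt_tsum (g := fun n z => T1 i z n) (g' := fun n z => T2 i z n) (summable_norm b)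
      (fun n z => ((((hasDerivAt_ee_update n x i z).div_const _).mul_const _).const_mul _).congr_deriv
        (by
          simp only [T2]
          push_cast
          linear_combination (((n i : ℂ)) ^ 2 * (ee n (Function.update x i z) / (wt k n : ℂ))
            * b n) * Complex.I_sq))
      (fun n z => hb2 i z n) (y₀ := x i)
      (Summable.of_norm_bounded (summable_norm b) (hb1 i (x i))) (x i)
  · rw [lapAt_apply, ← Summable.tsum_finsetSum
      (fun i _ => Summable.of_norm_bounded (summable_norm b) (hb2 i (x i)))]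
    refine tsum_congr fun n => ?_
    simp only [T2, Function.update_eq_self, qn]
    rw [← Finset.sum_mul]
    push_cast
    rw [Finset.sum_neg_distrib]
    ring

end Vale.Agent.P139
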