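import Vale.Agent.P139.Quad
import Vale.Agent.P139.Space

/-!
# P139: long solutions near constant states
-/

noncomputable section

namespace Vale.Agent.P139

open scoped ENNReal ComplexConjugate
open Filter Topology Set

variable {d : ℕ}

/-- Picard iteration on a closed ball of continuous curves on `[0, T]`. -/
lemma exists_picard {T ε L : ℝ} (hT : 0 ≤ T) (hL : L * T ≤ 1 / 2) (w0 : A d) (hw0 : ‖w0‖ ≤ ε)
    (f : ℝ → A d → A d)
    (hc : ∀ w : ℝ → A d, Continuous w → (∀ s, ‖w s‖ ≤ 2 * ε) → Continuous fun s => f s (w s))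
    (hf0 : ∀ s ∈ Icc 0 T, f s 0 = 0)
    (hlip : ∀ s ∈ Icc 0 T, ∀ u u' : A d, ‖u‖ ≤ 2 * ε → ‖u'‖ ≤ 2 * ε →
      ‖f s u - f s u'‖ ≤ L * ‖u - u'‖) (hL0 : 0 ≤ L) :
    ∃ W w : ℝ → A d, W 0 = w0 ∧ Continuous w ∧ (∀ s, ‖w s‖ ≤ 2 * ε) ∧
      (∀ t, HasDerivAt W (f t (w t)) t) ∧ ∀ t ∈ Icc 0 T, w t = W t := by
  have hε : 0 ≤ ε := (norm_nonneg w0).trans hw0
  let P := Metric.closedBall (0 : C(Icc (0:ℝ) T, A d)) (2 * ε)
  have hne : Nonempty P := ⟨⟨0, Metric.mem_closedBall_self (by linarith)⟩⟩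
  have : CompleteSpace P := Metric.isClosed_closedBall.isComplete.completeSpace_coe
  let e : P → ℝ → A d := fun w s => w.1 (projIcc 0 T hT s)
  have hec : ∀ w, Continuous (e w) := fun w => w.1.continuous.comp continuous_projIcc
  have hen : ∀ w s, ‖e w s‖ ≤ 2 * ε := fun w s =>
    (w.1.norm_coe_le_norm _).trans (mem_closedBall_zero_iff.1 w.2)
  let W : P → ℝ → A d := fun w t => w0 + ∫ s in (0:ℝ)..t, f s (e w s)
  have hkc : ∀ w, Continuous fun s => f s (e w s) := fun w => hc _ (hec w) (hen w)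
  have hWd : ∀ w t, HasDerivAt (W w) (f t (e w t)) t := fun w t =>
    ((hkc w).integral_hasStrictDerivAt 0 t).hasDerivAt.const_add w0
  have hWc : ∀ w, Continuous (W w) := fun w =>
    continuous_iff_continuousAt.2 fun t => (hWd w t).continuousAt
  have hWn : ∀ (w : P) (t : Icc (0:ℝ) T), ‖W w t‖ ≤ 2 * ε := fun w t => by
    refine (norm_add_le _ _).trans ?_
    have hb : ∀ s ∈ uIoc (0:ℝ) t, ‖f s (e w s)‖ ≤ L * (2 * ε) := fun s hs => by
      rw [uIoc_of_le t.2.1] at hs
      have hs' : s ∈ Icc 0 T := ⟨hs.1.le, hs.2.trans t.2.2⟩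
      have := hlip s hs' (e w s) 0 (hen w s) (by simp; linarith)
      rw [hf0 s hs', sub_zero, sub_zero] at this
      exact this.trans (mul_le_mul_of_nonneg_left (hen w s) hL0)
    have hi := intervalIntegral.norm_integral_le_of_norm_le_const hb
    rw [sub_zero, abs_of_nonneg t.2.1] at hi
    have h3 : L * (2 * ε) * (t : ℝ) ≤ L * (2 * ε) * T :=
      mul_le_mul_of_nonneg_left t.2.2 (by positivity)
    nlinarith
  let Φ : P → P := fun w => ⟨⟨fun t => W w t, (hWc w).comp continuous_subtype_val⟩,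
    mem_closedBall_zero_iff.2 ((ContinuousMap.norm_le _ (by linarith)).2 (hWn w))⟩
  have hΦ : ContractingWith (1/2) Φ := by
    refine ⟨by norm_num, LipschitzWith.of_dist_le_mul fun v w => ?_⟩
    rw [Subtype.dist_eq, Subtype.dist_eq, dist_eq_norm, dist_eq_norm]
    refine (ContinuousMap.norm_le _ (by positivity)).2 fun t => ?_
    show ‖W v t - W w t‖ ≤ _
    simp only [W, add_sub_add_left_eq_sub]
    rw [← intervalIntegral.integral_sub ((hkc v).intervalIntegrable _ _)
      ((hkc w).intervalIntegrable _ _)]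
    have hb : ∀ s ∈ uIoc (0:ℝ) t, ‖f s (e v s) - f s (e w s)‖ ≤ L * ‖v.1 - w.1‖ := fun s hs => by
      rw [uIoc_of_le t.2.1] at hs
      refine (hlip s ⟨hs.1.le, hs.2.trans t.2.2⟩ _ _ (hen v s) (hen w s)).trans ?_
      exact mul_le_mul_of_nonneg_left ((v.1 - w.1).norm_coe_le_norm _) hL0
    have hi := intervalIntegral.norm_integral_le_of_norm_le_const hb
    rw [sub_zero, abs_of_nonneg t.2.1] at hi
    refine hi.trans ((mul_le_mul_of_nonneg_left t.2.2 (by positivity)).trans ?_)
    push_cast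
    nlinarith [norm_nonneg (v.1 - w.1)]
  obtain ⟨w, hfix⟩ : ∃ w, Φ w = w := ⟨_, hΦ.fixedPoint_isFixedPt⟩
  refine ⟨W w, e w, by simp [W], hec w, hen w, hWd w, fun t ht => ?_⟩
  simp only [e, projIcc_of_mem hT ht]
  exact (DFunLike.congr_fun (congrArg Subtype.val hfix) ⟨t, ht⟩).symm

/-- The twisted curve `W`, with forcing `F`, defined on the whole line. -/
lemma exists_curve {lam K T : ℝ} (hl : 0 ≤ lam) (hT : 0 ≤ T) {N : A d → A d} (hN : Quad K N)
    (w0 : A d) (h1 : gam lam * (1 + T) * (2 * ‖w0‖) ≤ 1)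
    (h2 : 4 * K * (gam lam * (1 + T)) ^ 3 * T * ‖w0‖ ≤ 1) :
    ∃ (W F : ℝ → A d), W 0 = w0 ∧ Continuous F ∧
      (∀ t, HasDerivAt W (S lam (-t) (F t)) t) ∧
      ∀ t ∈ Icc 0 T, F t = N (S lam t (W t)) := by
  set σ := gam lam * (1 + T) with hσ
  have hK := hN.1
  have hg : 0 ≤ gam lam := le_trans zero_le_one (one_le_gam hl)
  have hσ0 : 0 ≤ σ := mul_nonneg hg (by linarith)
  have hr0 : 0 ≤ σ * (2 * ‖w0‖) := by positivity
  have hSle : ∀ t : ℝ, |t| ≤ T → ∀ b : A d, ‖S lam t b‖ ≤ σ * ‖b‖ := fun t ht b =>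
    (norm_S_le hl t b).trans (by rw [hσ]; gcongr)
  let p : ℝ → ℝ := fun s => (projIcc 0 T hT s : ℝ)
  have hpI : ∀ s, |p s| ≤ T := fun s => by
    have := (projIcc 0 T hT s).2
    simp only [p]; rw [abs_of_nonneg this.1]; exact this.2
  let Fof : ℝ → A d → A d := fun s u => N (S lam (p s) u)
  have hin : ∀ s u, ‖u‖ ≤ 2 * ‖w0‖ → ‖S lam (p s) u‖ ≤ σ * (2 * ‖w0‖) := fun s u hu =>
    (hSle _ (hpI s) u).trans (mul_le_mul_of_nonneg_left hu hσ0)
  have hFc : ∀ w : ℝ → A d, Continuous w → (∀ s, ‖w s‖ ≤ 2 * ‖w0‖) →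
      Continuous fun s => Fof s (w s) := fun w hw hwn => by
    have hpc : Continuous p := continuous_subtype_val.comp continuous_projIcc
    have hgc : Continuous fun s => S lam (p s) (w s) :=
      (continuous_S hl).comp₂ hpc hw
    rw [continuous_iff_continuousAt]
    intro s0
    rw [ContinuousAt, tendsto_iff_norm_sub_tendsto_zero]
    refine squeeze_zero (fun _ => norm_nonneg _)
      (fun s => hN.2.2 _ h1 _ _ (hin s _ (hwn s)) (hin s0 _ (hwn s0))) ?_
    have := ((hgc.tendsto s0).sub (tendsto_const_nhds (x := S lam (p s0) (w s0)))).norm.const_mul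
      (K * (σ * (2 * ‖w0‖)))
    simpa using this
  have hS0 : ∀ t, S lam t (0 : A d) = 0 := fun t => by simpa using S_sub hl t (0 : A d) 0
  obtain ⟨W, w, hW0, hwc, hwn, hWd, hw⟩ := exists_picard hT
    (L := σ * (K * (σ * (2 * ‖w0‖)) * σ))
    (by nlinarith [h2]) w0 le_rfl (fun s u => S lam (-s) (Fof s u))
    (fun w hw hwn => (continuous_S hl).comp (continuous_neg.prodMk (hFc w hw hwn)))
    (fun s _ => by simp [Fof, hS0, hN.2.1])
    (fun s hs u u' hu hu' => by
      rw [← S_sub hl]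
      refine (hSle _ (by rw [abs_neg, abs_of_nonneg hs.1]; exact hs.2) _).trans ?_
      rw [mul_assoc σ]
      refine mul_le_mul_of_nonneg_left ?_ hσ0
      refine (hN.2.2 _ h1 _ _ (hin s u hu) (hin s u' hu')).trans ?_
      rw [mul_assoc (K * (σ * (2 * ‖w0‖))), ← S_sub hl]
      exact mul_le_mul_of_nonneg_left (hSle _ (hpI s) _) (by positivity))
    (by positivity)
  refine ⟨W, fun s => Fof s (w s), hW0, hFc w hwc hwn, hWd, fun t ht => ?_⟩
  simp only [Fof, p, projIcc_of_mem hT ht, hw t ht]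

/-- The equation satisfied by each mode of `S t (W t)`. -/
lemma hasDerivAt_mode {lam : ℝ} (hl : 0 ≤ lam) {W F : ℝ → A d}
    (hWd : ∀ t, HasDerivAt W (S lam (-t) (F t)) t) (t : ℝ) (n : Idx d) :
    HasDerivAt (fun s => S lam s (W s) n) (Lc lam n (S lam t (W t)) + F t n) t := by
  have hcoord : ∀ j, HasDerivAt (fun s => W s j) (S lam (-t) (F t) j) t := fun j =>
    ((coord j).restrictScalars ℝ).hasFDerivAt.comp_hasDerivAt t (hWd t)
  have h := hasDerivAt_Sc hl (f := fun s => (W s : Idx d → ℂ))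
    (f' := (S lam (-t) (F t) : Idx d → ℂ)) (hcoord n) (hcoord (-n))
  have e1 : (fun s => Sc lam s n (W s : Idx d → ℂ)) = fun s => S lam s (W s) n :=
    funext fun s => (S_apply hl s (W s) n).symm
  have e2 : (fun j => Sc lam t j (W t : Idx d → ℂ)) = (S lam t (W t) : Idx d → ℂ) :=
    funext fun j => (S_apply hl t (W t) j).symm
  rw [e1, e2, ← S_apply hl t (S lam (-t) (F t)) n, S_S_neg hl] at h
  exact h

/-- The integrated, evaluated form of the linear equation. -/
lemma hasDerivAt_ev_curve {lam : ℝ} (hl : 0 ≤ lam) {k : ℕ} (hk : 2 ≤ k) {W F : ℝ → A d}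
    (hFc : Continuous F) (hWd : ∀ t, HasDerivAt W (S lam (-t) (F t)) t) (t : ℝ) (x : Fin d → ℝ) :
    HasDerivAt (fun s => ev k x (S lam s (W s)))
      (ev k x (F t) + Complex.I * lapAt k hk x (S lam t (W t))
        - Complex.I * (lam : ℂ) * (ev k x (S lam t (W t)) + conj (ev k x (S lam t (W t))))) t := by
  let v : ℝ → A d := fun t => S lam t (W t)
  have hWc : Continuous W := continuous_iff_continuousAt.2 fun t => (hWd t).continuousAt
  have hvc : Continuous v := (continuous_S hl).comp (continuous_id.prodMk hWc)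
  let v0 : A d := W 0
  have hv0 : v 0 = v0 := by simp [v, v0, S_zero_time hl]
  have hmode : ∀ t n, HasDerivAt (fun s => v s n) (Lc lam n (v t) + F t n) t :=
    hasDerivAt_mode hl hWd
  -- time integrated equation
  let P : ℝ → A d := fun t => ∫ s in (0:ℝ)..t, v s
  let Q : ℝ → A d := fun t => ∫ s in (0:ℝ)..t, F s
  have hPd : ∀ t, HasDerivAt P (v t) t := fun t =>
    (hvc.integral_hasStrictDerivAt 0 t).hasDerivAt
  have hQd : ∀ t, HasDerivAt Q (F t) t := fun t =>
    (hFc.integral_hasStrictDerivAt 0 t).hasDerivAt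
  have hint : ∀ t n, v t n - v0 n - Q t n = Lc lam n (P t) := fun t n => by
    have hPc : ∀ s j, HasDerivAt (fun r => P r j) (v s j) s := fun s j =>
      ((coord j).restrictScalars ℝ).hasFDerivAt.comp_hasDerivAt s (hPd s)
    have hQc : ∀ s, HasDerivAt (fun r => Q r n) (F s n) s := fun s =>
      ((coord n).restrictScalars ℝ).hasFDerivAt.comp_hasDerivAt s (hQd s)
    have hd : ∀ s, HasDerivAt (fun r => v r n - v0 n - Q r n - Lc lam n (P r)) 0 s := fun s => by
      have hL : HasDerivAt (fun r => Lc lam n (P r)) (Lc lam n (v s)) s := by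
        simp only [Lc]
        exact (((hPc s n).const_mul _).add (((hPc s (-n)).star).const_mul _)).const_mul _
      exact ((((hmode s n).sub_const _).sub (hQc s)).sub hL).congr_deriv (by ring)
    have h0 := is_const_of_deriv_eq_zero (fun s => (hd s).differentiableAt)
      (fun s => (hd s).deriv) t 0
    have hP0 : P 0 = 0 := intervalIntegral.integral_same
    have hQ0 : Q 0 = 0 := intervalIntegral.integral_same
    simp only [hv0, hP0, hQ0, lp.coeFn_zero, Pi.zero_apply, sub_self, sub_zero] at h0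
    have hL0 : Lc lam n (0 : Idx d → ℂ) = 0 := by simp [Lc]
    rw [hL0, sub_zero] at h0
    exact sub_eq_zero.1 h0
  have hev : ∀ t x, ev k x (v t) = ev k x v0 + ev k x (Q t) + Complex.I * lapAt k hk x (P t)
      - Complex.I * (lam : ℂ) * (ev k x (P t) + conj (ev k x (P t))) := fun t x => by
    have key : ev k x (v t - v0 - Q t) = Complex.I * lapAt k hk x (P t)
        - Complex.I * (lam : ℂ) * (ev k x (P t) + conj (ev k x (P t))) := by
      have s1 : Summable fun n => -((qn n : ℂ)) * (ee n x / (wt k n : ℂ)) * P t n :=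
        Summable.of_norm_bounded (summable_norm (P t)) fun n => by
          rw [norm_mul]
          refine mul_le_of_le_one_left (norm_nonneg _) ?_
          rw [norm_mul, norm_neg, norm_div, norm_ee, Complex.norm_real, Complex.norm_real,
            Real.norm_eq_abs, Real.norm_eq_abs, abs_of_nonneg (qn_nonneg n),
            abs_of_pos (wt_pos k n), mul_one_div]
          exact (div_le_one (wt_pos k n)).2 (qn_le_wt hk n)
      have s2 := (summable_ev k x (P t)).of_norm
      have s3 := (summable_ev k x (cj (P t))).of_norm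
      rw [← ev_cj, ev_apply, ev_apply, ev_apply, lapAt_apply, mul_add, ← tsum_mul_left,
        ← tsum_mul_left, ← tsum_mul_left, ← (s2.mul_left _).tsum_add (s3.mul_left _),
        ← (s1.mul_left _).tsum_sub ((s2.mul_left _).add (s3.mul_left _))]
      refine tsum_congr fun n => ?_
      simp only [lp.coeFn_sub, Pi.sub_apply]
      rw [hint t n]
      simp only [Lc, cj_apply]
      push_cast
      ring
    rw [map_sub, map_sub] at key
    linear_combination key
  have hevd : ∀ t x, HasDerivAt (fun s => ev k x (v s))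
      (ev k x (F t) + Complex.I * lapAt k hk x (v t)
        - Complex.I * (lam : ℂ) * (ev k x (v t) + conj (ev k x (v t)))) t := fun t x => by
    simp only [hev _ x]
    have a1 : HasDerivAt (fun s => ev k x (Q s)) (ev k x (F t)) t :=
      ((ev k x).restrictScalars ℝ).hasFDerivAt.comp_hasDerivAt t (hQd t)
    have a2 : HasDerivAt (fun s => ev k x (P s)) (ev k x (v t)) t :=
      ((ev k x).restrictScalars ℝ).hasFDerivAt.comp_hasDerivAt t (hPd t)
    have a3 : HasDerivAt (fun s => lapAt k hk x (P s)) (lapAt k hk x (v t)) t :=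
      ((lapAt k hk x).restrictScalars ℝ).hasFDerivAt.comp_hasDerivAt t (hPd t)
    exact (((a1.const_add _).add (a3.const_mul _)).sub ((a2.add a2.star).const_mul _)).congr_deriv
      (by rw [← hev t x]; rfl)
  exact hevd t x

/-- The datum `e^{iθ}(a + ∑ₙ v0ₙ/wtₙ e^{in·x})` has a solution on `[0,T]` once
`C (1+T)^4 ‖v0‖ ≤ 1`, with `C` depending only on `m` and a bound for `a`. -/
theorem exists_long_solution (d m k : ℕ) (hk : 2 ≤ k) (R : ℝ) :
    ∃ C : ℝ, 0 < C ∧ ∀ (a : ℝ), 0 ≤ a → a ≤ R → ∀ (ph : ℂ), ‖ph‖ = 1 → ∀ (v0 : A d) (T : ℝ),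
      0 ≤ T → C * (1 + T) ^ 4 * ‖v0‖ ≤ 1 →
      ∃ c, IsSolution d m k T
        (fun n => ph * ((lp.single 1 (0 : Idx d) (a : ℂ) + v0 : A d) n) / (wt k n : ℂ)) c := by
  obtain ⟨K, hK⟩ := quad_rem (d := d) k R (m + 1) m
  let G := gam ((m : ℝ) * |R| ^ (2 * m))
  have hG1 : 1 ≤ G := one_le_gam (by positivity)
  refine ⟨4 * (|K| + 1) * G ^ 3, by positivity, fun a ha haR ph hph v0 T hT hC => ?_⟩
  set lam := (m : ℝ) * a ^ (2 * m) with hlam
  set rho := a ^ (2 * m) with hrho
  have hl : 0 ≤ lam := by positivity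
  have hgG : gam lam ≤ G := by
    simp only [G, gam, hlam]
    have : a ≤ |R| := haR.trans (le_abs_self R)
    have hr : rho ≤ |R| ^ (2 * m) := by
      rw [hrho]; exact pow_le_pow_left₀ ha this _
    gcongr
  have hg1 := one_le_gam hl
  have hQ : Quad |K| (fun u : A d => (-Complex.I) • rem k a (m + 1) m u) := by
    simpa using ((hK a (by rwa [abs_of_nonneg ha])).smul (-Complex.I) (M := 1) (by simp)).mono
      (show 1 * K ≤ |K| by simpa using le_abs_self K)
  set ε := ‖v0‖
  have hε : 0 ≤ ε := norm_nonneg _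
  have hG3 : gam lam ≤ G ^ 3 := hgG.trans (le_self_pow₀ hG1 (by norm_num))
  have h1 : gam lam * (1 + T) * (2 * ε) ≤ 1 := by
    refine le_trans ?_ hC
    have hp : 1 + T ≤ (1 + T) ^ 4 := le_self_pow₀ (by linarith) (by norm_num)
    calc gam lam * (1 + T) * (2 * ε) ≤ G ^ 3 * (1 + T) ^ 4 * (4 * (|K| + 1) * ε) := by
          gcongr
          nlinarith [abs_nonneg K, mul_nonneg (abs_nonneg K) hε]
      _ = _ := by ring
  have h2 : 4 * |K| * (gam lam * (1 + T)) ^ 3 * T * ε ≤ 1 := by
    refine le_trans ?_ hC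
    calc 4 * |K| * (gam lam * (1 + T)) ^ 3 * T * ε
        ≤ 4 * (|K| + 1) * (G * (1 + T)) ^ 3 * (1 + T) * ε := by
          gcongr <;> linarith
      _ = _ := by ring
  obtain ⟨W, F, hW0, hFc, hWd, hF⟩ := exists_curve hl hT hQ v0 h1 h2
  let v : ℝ → A d := fun t => S lam t (W t)
  have hWc : Continuous W := continuous_iff_continuousAt.2 fun t => (hWd t).continuousAt
  have hvc : Continuous v := (continuous_S hl).comp (continuous_id.prodMk hWc)
  have hv0 : v 0 = v0 := by simp [v, hW0, S_zero_time hl]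
  have hevd := hasDerivAt_ev_curve hl hk hFc hWd
  -- the solution
  let z : ℝ → ℂ := fun t => ph * Complex.exp (((-(rho * t) : ℝ) : ℂ) * Complex.I)
  let B : ℝ → A d := fun t => z t • (lp.single 1 (0 : Idx d) (a : ℂ) + v t)
  have hBc : Continuous B := by
    have : Continuous z := by simp only [z]; fun_prop
    exact this.smul (continuous_const.add hvc)
  have hnorm : ∀ (b : A d), (fun n => (1 + ∑ i, |(n i : ℝ)|) ^ k * ‖b n / (wt k n : ℂ)‖) =
      fun n => ‖b n‖ := fun b => funext fun n => by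
    rw [norm_div, Complex.norm_real, Real.norm_eq_abs, abs_of_pos (wt_pos k n)]
    exact mul_div_cancel₀ _ (wt_pos k n).ne'
  refine ⟨fun t n => B t n / (wt k n : ℂ), ?_, ?_, ?_, ?_⟩
  · intro n
    have hz0 : z 0 = ph := by simp [z]
    simp only [B, hz0, hv0, lp.coeFn_smul, Pi.smul_apply, smul_eq_mul]
  · intro t _
    rw [hnorm (B t)]; exact summable_norm _
  · intro t _
    have e : (fun s => ∑' n : Fin d → ℤ, (1 + ∑ i, |(n i : ℝ)|) ^ k *
        ‖B s n / (wt k n : ℂ) - B t n / (wt k n : ℂ)‖) = fun s => ‖B s - B t‖ := funext fun s => by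
      rw [norm_eq]
      refine tsum_congr fun n => ?_
      rw [← sub_div]
      exact congrFun (hnorm (B s - B t)) n
    rw [e]
    have := ((hBc.sub (continuous_const (y := B t))).norm.tendsto' t 0 (by simp))
    exact this.mono_left nhdsWithin_le_nhds
  · intro t ht x
    have hu : ∀ s y, uOf (fun t n => B t n / (wt k n : ℂ)) s y = ev k y (B s) := fun s y => by
      rw [uOf, ev_apply]
      refine tsum_congr fun n => ?_
      rw [ee]; ring
    obtain ⟨Du, DDu, hD1, hD2, hD3⟩ := spatial_derivs hk (B t) x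
    set q := ev k x (v t) with hq
    have hzd : HasDerivAt z (z t * (((-rho : ℝ) : ℂ) * Complex.I)) t := by
      have h := (((((hasDerivAt_id t).const_mul rho).neg).ofReal_comp).mul_const
        Complex.I).cexp.const_mul ph
      refine h.congr_deriv ?_
      simp [z]; ring
    have hevB : ∀ s, ev k x (B s) = z s * ((a : ℂ) + ev k x (v s)) := fun s => by
      simp [B, ev_single_zero, mul_add]
    have hlB : lapAt k hk x (B t) = z t * lapAt k hk x (v t) := by
      simp [B, lapAt_single_zero]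
    have hut := hzd.mul ((hevd t x).const_add (a : ℂ))
    refine ⟨_, Du, DDu, by simp only [hu, hevB]; exact hut, by simpa only [hu] using hD1, hD2, ?_⟩
    rw [hD3, hlB, hu, hevB, ← hq]
    have hFt : ev k x (F t) = -Complex.I * ev k x (rem k a (m + 1) m (v t)) := by
      rw [hF t ht]
      exact map_smul (ev k x) _ _
    have hz1 : ‖z t‖ = 1 := by
      simp only [z, norm_mul, hph, Complex.norm_exp_ofReal_mul_I, mul_one]
    have hpw : ((‖z t * ((a : ℂ) + q)‖ ^ (2 * m) : ℝ) : ℂ) * ((a : ℂ) + q)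
        = ((a : ℂ) + q) ^ (m + 1) * ((a : ℂ) + conj q) ^ m := by
      rw [norm_mul, hz1, one_mul, pow_mul]
      push_cast
      rw [← Complex.mul_conj', mul_pow, map_add, Complex.conj_ofReal]
      ring
    have hr := ev_rem k a x (v t) (m + 1) m
    rw [← hq] at hr
    have e2 : m + 1 + m - 1 = 2 * m := by omega
    have e3 : m + 1 + m = 2 * m + 1 := by omega
    rw [e2, e3] at hr
    rw [hr] at hpw
    rw [hFt]
    simp only [hlam, hrho]
    push_cast at hpw ⊢
    linear_combination (-(z t)) * hpw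
      + (-(z t) * ((a : ℂ) ^ (2 * m) * ((a : ℂ) + q) + ev k x (rem k a (m + 1) m (v t))
          - lapAt k hk x (v t) + (m : ℂ) * (a : ℂ) ^ (2 * m) * (q + conj q))) * Complex.I_sq

end Vale.Agent.P139
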